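import Vale.Agent.P167.N.Kit
import Vale.Agent.P167.H635.Box

/-!
# P167, `q < 1`: total variation mixing
-/

namespace Vale.Agent.P167.N.H562.GL

open Finset Vale.Agent.P167.FK Vale.Agent.P167.FKA Vale.Agent.P167.H635
open Vale.Agent.P167.H259 (f_markov Ex_out)
open Vale.Agent.P167.H519 (Sx Jn cf_in loc_mono ind_le_of_imp)
open Vale.Agent.P167.H562.GL (near_of_corx far_of_corx)

variable {Q : ℝ} {V A : Finset (ℤ × ℤ)} {ξ ξ1 : Cfg} {F : Cfg → ℝ}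

/-- **Total variation mixing**, one new block. -/
theorem tv_wi (hQ : Kit Q) (hF0 : ∀ ω, 0 ≤ F ω) (hF1 : ∀ ω, F ω ≤ 1) (hL : Loc V F)
    (hVA : V ⊆ A) (hξ : Good ξ) (hξ1 : Good ξ1) {𝓦 : Set (ℤ × ℤ)} (h : Wi A ξ ξ1 𝓦) :
    |Ex Q A ξ F - Ex Q A ξ1 F| ≤ Pr Q A ξ1 {ω | Jn 𝓦 V ω} := by
  have hQ0 := hQ.pos
  have key : ∀ G : Cfg → ℝ, (∀ ω, 0 ≤ G ω) → (∀ ω, G ω ≤ 1) → Loc V G →
      Ex Q A ξ1 G - Ex Q A ξ G ≤ Pr Q A ξ1 {ω | Jn 𝓦 V ω} := by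
    intro G hG0 hG1 hG
    have h1 := bil_w hQ0 hQ.le hVA hξ hξ1 h hG0 (G := fun _ => 1) (fun _ => zero_le_one) hG
      fun _ _ _ => rfl
    rw [Ex_const hQ0, Ex_const hQ0, mul_one, mul_one, sub_ind] at h1
    have h2 : Ex Q A ξ1 (fun ω => G ω * {ω | Jn 𝓦 V ω}.indicator 1 ω) ≤
        Ex Q A ξ1 ({ω | Jn 𝓦 V ω}.indicator 1) := by
      refine Ex_mono hQ0 fun S _ => ?_
      have := mul_le_mul_of_nonneg_right (hG1 (cf A ξ1 S))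
        (ind_nonneg {ω | Jn 𝓦 V ω} (cf A ξ1 S))
      linarith
    have h3 : Ex Q A ξ1 ({ω | Jn 𝓦 V ω}.indicator 1) = Pr Q A ξ1 {ω | Jn 𝓦 V ω} := rfl
    linarith
  have k1 := key F hF0 hF1 hL
  have k2 := key (fun ω => 1 - F ω) (fun ω => sub_nonneg.2 (hF1 ω))
    (fun ω => sub_le_self 1 (hF0 ω)) fun ω ω' hw => congrArg (fun t => 1 - t) (hL ω ω' hw)
  rw [Ex_sub, Ex_sub, Ex_const hQ0, Ex_const hQ0] at k2
  rw [abs_le]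
  constructor <;> linarith

/-- Mixing for a box. -/
theorem tv_box (hQ : Kit Q) {α C : ℝ} (hA : ArmDec Q α C) {x : ℤ × ℤ} {r R : ℤ} (hr : 1 ≤ r)
    (hrR : r ≤ R) {V : Finset (ℤ × ℤ)} (hV : V ⊆ Bq x r) {F : Cfg → ℝ} (hF0 : ∀ ω, 0 ≤ F ω)
    (hF1 : ∀ ω, F ω ≤ 1) (hL : Loc V F) {η : Cfg} (hη : Good η) :
    |Ex Q (Bq x R) η F - Ex Q (Bq x R) eta1 F| ≤ C * ((r : ℝ) / R) ^ α := by
  have hQ0 := hQ.pos
  have hsub : Bq x r ⊆ Bq x R := bq_mono hrR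
  have e1 : Ex Q (Bq x R) eta1 F = Ex Q (Bq x R) (wir x R) F :=
    Ex_out (fun v hv => by rw [wir_out hv]; rfl) _
  rw [e1]
  refine (tv_wi hQ hF0 hF1 hL (hV.trans hsub) hη (good_wir x R)
    (wire_box subset_rfl fun v h h' => absurd h h').toWi).trans ?_
  have h4 := hA x r R (Bq x R) (wir x R) (fun _ => 1) hr hrR (good_wir x R) Finset.sdiff_subset
    (fun _ => zero_le_one) (fun _ _ _ => rfl)
  rw [Ex_const hQ0, mul_one] at h4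
  refine le_trans ?_ h4
  refine Ex_mono hQ0 fun S _ => ?_
  rw [one_mul]
  refine ind_le_of_imp ?_
  rintro ⟨s, ⟨hse, hs⟩, u, ⟨w, hw, hwu⟩, hsu⟩
  show ArmPx x r R _
  rw [armPx_iff hrR]
  refine ⟨u, s, ?_, near_of_corx (hV hw) hwu, hs, H519.conn_symm hsu⟩
  have := rtg_parity hsu
  rw [Int.even_iff] at *
  omega

end Vale.Agent.P167.N.H562.GL
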