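import Vale.Agent.P167.N.Kit
import Vale.Agent.P167.N.H562.GTv
import Vale.Agent.P167.H562.GBias

/-! generated from Vale.Agent.P167.H562.GBias (q < 1 port) -/

set_option autoImplicit false

namespace Vale.Agent.P167.N.H562.GL

open Vale.Agent.P167.H562.GL Vale.Agent.P167.H562

open Finset Filter Topology MeasureTheory Vale.Agent.P167.FK Vale.Agent.P167.FKA

open Vale.Agent.P167.H519 (IsLim loc_cont Bq_mono exists_Bq)

open Vale.Agent.P167.H259 (f_markov f_fkg f_comp)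

variable {Q : ℝ} {P : Measure Cfg}

/-- Mixing for `P`. -/
theorem lim_mix (hQ : Kit Q) {α C : ℝ} (hA : ArmDec Q α C) (hP : IsLim Q P) {x : ℤ × ℤ} {r R : ℤ}
    (hr : 1 ≤ r) (hrR : r ≤ R) {V : Finset (ℤ × ℤ)} (hV : V ⊆ Bq x r) {F : Cfg → ℝ}
    (hF0 : ∀ ω, 0 ≤ F ω) (hF1 : ∀ ω, F ω ≤ 1) (hL : Loc V F) {B : Finset (ℤ × ℤ)} {G : Cfg → ℝ}
    (hG0 : ∀ ω, 0 ≤ G ω) (hG : Loc B G) (hI : Ind (Bq x R) G) :
    |∫ ω, G ω * F ω ∂P - Ex Q (Bq x R) eta1 F * ∫ ω, G ω ∂P| ≤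
      C * ((r : ℝ) / R) ^ α * ∫ ω, G ω ∂P := by
  have hQ_pos := hQ.pos
  have hQ0 : 0 < Q := by linarith
  set c := Ex Q (Bq x R) eta1 F with hc
  set δ := C * ((r : ℝ) / R) ^ α with hδ
  have hGF : Loc (B ∪ V) (fun ω => G ω * F ω) := Loc.mulU hG hL
  have h1 : ∫ ω, G ω * F ω ∂P ≤ (c + δ) * ∫ ω, G ω ∂P := by
    refine lim_le hP hGF hG (D0 := Bq x R) fun D hD => ?_
    rw [markov f_markov hQ0 hD f_good.2.1 hI, ← Ex_mul_left]
    refine Ex_mono hQ0 fun S _ => ?_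
    rw [mul_comm (c + δ)]
    refine mul_le_mul_of_nonneg_left ?_ (hG0 _)
    have := tv_box hQ hA hr hrR hV hF0 hF1 hL (f_good.1 D eta0 S f_good.2.1)
    rw [abs_le] at this
    linarith [this.2]
  have h2 : ∫ ω, -(G ω * F ω) ∂P ≤ (-(c - δ)) * ∫ ω, G ω ∂P := by
    refine lim_le hP (A := B ∪ V) (fun ω ω' hw => ?_) hG (D0 := Bq x R) fun D hD => ?_
    · exact congrArg Neg.neg (hGF ω ω' hw)
    · rw [Ex_neg, markov f_markov hQ0 hD f_good.2.1 hI, neg_mul, neg_le_neg_iff, ← Ex_mul_left]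
      refine Ex_mono hQ0 fun S _ => ?_
      rw [mul_comm (c - δ)]
      refine mul_le_mul_of_nonneg_left ?_ (hG0 _)
      have := tv_box hQ hA hr hrR hV hF0 hF1 hL (f_good.1 D eta0 S f_good.2.1)
      rw [abs_le] at this
      linarith [this.1]
  rw [integral_neg] at h2
  rw [abs_le]
  constructor <;> nlinarith

/-- Mixing for the conditioned measures. -/
theorem nu_mix (hQ : Kit Q) {α C : ℝ} (hA : ArmDec Q α C) (hP : IsLim Q P) {x : ℤ × ℤ} {r R : ℤ}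
    (hr : 1 ≤ r) (hrR : r ≤ R) {U : Finset (ℤ × ℤ)} (hU : Bq x R ⊆ U) {ν : Measure Cfg}
    (hν : Nu P ν U) {V : Finset (ℤ × ℤ)} (hV : V ⊆ Bq x r) {F : Cfg → ℝ}
    (hF0 : ∀ ω, 0 ≤ F ω) (hF1 : ∀ ω, F ω ≤ 1) (hL : Loc V F) :
    |∫ ω, F ω ∂ν - ∫ ω, F ω ∂P| ≤ 2 * (C * ((r : ℝ) / R) ^ α) := by
  have hQ_pos := hQ.pos
  have hPp : IsProbabilityMeasure P := hP.1
  obtain ⟨G, B, hG0, hG, hI, hpos, hν⟩ := hν.ex
  have h1 := lim_mix hQ hA hP hr hrR hV hF0 hF1 hL hG0 hG (hI.mono hU)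
  have h2 := lim_mix hQ hA hP hr hrR hV hF0 hF1 hL (G := fun _ => 1) (B := ∅)
    (fun _ => zero_le_one) (fun _ _ _ => rfl) (fun _ _ _ => rfl)
  simp only [one_mul, integral_const, probReal_univ, smul_eq_mul, mul_one] at h2
  rw [hν F V hL]
  have h3 : |(∫ ω, G ω * F ω ∂P) / ∫ ω, G ω ∂P - Ex Q (Bq x R) eta1 F| ≤
      C * ((r : ℝ) / R) ^ α := by
    have e : (∫ ω, G ω * F ω ∂P) / ∫ ω, G ω ∂P - Ex Q (Bq x R) eta1 F =
        (∫ ω, G ω * F ω ∂P - Ex Q (Bq x R) eta1 F * ∫ ω, G ω ∂P) / ∫ ω, G ω ∂P := by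
      field_simp
    rw [e, abs_div, abs_of_pos hpos, div_le_iff₀ hpos]
    exact h1
  rw [abs_le] at h2 h3 ⊢
  constructor <;> linarith [h2.1, h2.2, h3.1, h3.2]

end Vale.Agent.P167.N.H562.GL
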